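import Vale.Agent.P238.Final

namespace Vale.Agent.Results.P238.Lower

open Vale.Agent.P238

theorem result : ∃ c : ℝ, 0 < c ∧ ∃ n₀ : ℕ, ∀ n ≥ n₀,
    Real.exp (c * √(Real.log n * Real.log (Real.log n)))
      ≤ c1 (Fin n → Bool) fun x y => ED (List.ofFn x) (List.ofFn y) := by
  have e1 : ∀ k : ℕ, 4096 ≤ k → 24 * (k + 1) ≤ k ^ 2 ∧ 2 * (73 * (k + 1) ^ 2) ≤ 584 * k ^ 2 :=
    fun k hk => ⟨by nlinarith, by nlinarith⟩
  obtain ⟨k₀, hk₀⟩ : ∃ k₀ : ℕ, 4096 ≤ k₀ := ⟨_, le_rfl⟩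
  refine ⟨1 / 98, by norm_num, (24 * k₀) ^ (73 * k₀ ^ 2), fun n hn => ?_⟩
  have hB : ∀ k : ℕ, k ≠ 0 → k ≤ (24 * k) ^ (73 * k ^ 2) := fun k hk =>
    le_trans (by omega) (Nat.le_self_pow (by positivity) _)
  have h0 : k₀ ≤ n := (hB k₀ (by omega)).trans hn
  obtain ⟨k, hk, h1, h2⟩ : ∃ k : ℕ, 4096 ≤ k ∧ (24 * k) ^ (73 * k ^ 2) ≤ n ∧
      n < (24 * (k + 1)) ^ (73 * (k + 1) ^ 2) := by
    refine ⟨Nat.findGreatest (fun k => (24 * k) ^ (73 * k ^ 2) ≤ n) n,
      hk₀.trans (Nat.le_findGreatest h0 hn),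
      Nat.findGreatest_spec (P := fun k => (24 * k) ^ (73 * k ^ 2) ≤ n) h0 hn,
      not_le.1 fun h => ?_⟩
    exact Nat.findGreatest_is_greatest (P := fun k => (24 * k) ^ (73 * k ^ 2) ≤ n)
      (Nat.lt_succ_self _) ((hB _ (by omega)).trans h) h
  refine le_trans (Real.exp_le_exp.2 ?_) (bound hk h1)
  have hk' : (4096 : ℝ) ≤ k := by exact_mod_cast hk
  have hn' : (4096 : ℝ) ≤ n := by exact_mod_cast hk₀.trans h0
  have a0 : n ≤ k ^ (584 * k ^ 2) := by
    refine h2.le.trans ((Nat.pow_le_pow_left (e1 k hk).1 _).trans ?_)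
    rw [← pow_mul]
    exact Nat.pow_le_pow_right (by omega) (e1 k hk).2
  clear h1 h2 hn hB e1
  have hl : 0 < Real.log k := Real.log_pos (by linarith)
  have hln : 0 < Real.log n := Real.log_pos (by linarith)
  have a1 : Real.log n ≤ 584 * k ^ 2 * Real.log k := by
    have := Real.log_le_log (by linarith) (Nat.cast_le.2 a0)
    rw [Nat.cast_pow, Real.log_pow] at this
    exact_mod_cast this
  have a2 : Real.log (Real.log n) ≤ 4 * Real.log k := by
    refine (Real.log_le_log hln (a1.trans (?_ : _ ≤ (k : ℝ) ^ 4))).trans (by simp)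
    have := Real.log_le_sub_one_of_pos (by linarith : (0 : ℝ) < k)
    have : 584 * Real.log k ≤ k * k := by nlinarith
    nlinarith [mul_le_mul_of_nonneg_left this (sq_nonneg (k : ℝ))]
  have a3 : √(Real.log n * Real.log (Real.log n)) ≤ 49 * (k * Real.log k) := by
    refine Real.sqrt_le_iff.2 ⟨by positivity, ?_⟩
    refine (mul_le_mul_of_nonneg_left a2 hln.le).trans ((mul_le_mul_of_nonneg_right a1
      (by positivity)).trans ?_)
    nlinarith [sq_nonneg (k * Real.log k)]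
  linarith

end Vale.Agent.Results.P238.Lower
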